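import Vale.Agent.P305GL.Defs
import Vale.Agent.P305SC.Box
import Vale.Agent.P305BL.Store

/-!
# The start of a phase
-/

namespace Vale.Agent.P305IN

open Vale.Agent.P305 Vale.Agent.P305E Vale.Agent.P305C Vale.Agent.P305LC Vale.Agent.P305N
  Vale.Agent.P305GH Vale.Agent.P305O Vale.Agent.P305GL Finset

variable {β : Type} [Rep β]

/-- The state without roots. -/
def s0 (n : ℕ) (mt : Arr ℕ) : S :=
  ⟨Arr.const 0, mt, Arr.const 0, Arr.const 0, Arr.const [], Arr.const 0, Arr.const 0,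
    ⟨Arr.const (0, false), Arr.const ([], (0, 0), (0, 0)), n⟩,
    ⟨Arr.const false, Arr.const 0, Arr.const 0, Arr.const 0, Arr.const 0⟩, 1, 0⟩

/-- The vertex `v` becomes the root `y`. -/
def addRoot (N : Ops) (s : S) (v y c : ℕ) : S :=
  ⟨s.own.set v y, s.mt, s.cid.set v y, s.vx.set s.nc v, s.mem.set y [v], s.sz.set y 1,
    s.top.set y v, s.bs, N.root s.ns y, c, s.cm⟩

/-- One root. -/
def rootP (E : Env β) (Q : ℕ) (z : S × List ℕ × β) (v : ℕ) : M (S × List ℕ × β) :=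
  num (4 * z.1.nc) >>= fun y => num (z.1.nc + 1) >>= fun c =>
    E.X.node z.2.2 y Q false >>= fun bx => pure (addRoot E.N z.1 v y c, y :: z.2.1, bx)

/-- The start. -/
def initP (E : Env β) (sl : Pr → S → List ℕ → β → M β) (p : Pr) (mt : Arr ℕ) : M (Fs β) :=
  E.X.init p.b 1 >>= fun bx => rangeP p.n >>= fun r =>
    filterP (fun v => decide (mt.get v = v)) r >>= fun l =>
    foldM (rootP E p.Q) (s0 p.n mt, [], bx) l >>= fun z =>
    sl p z.1 z.2.1 z.2.2 >>= fun bx' => pure (z.1, Arr.const [], bx')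

theorem impl_initP (E : Env β) {sl : Pr → S → List ℕ → β → M β}
    (h : Impl fun p : Pr × S × List ℕ × β => sl p.1 p.2.1 p.2.2.1 p.2.2.2) :
    Impl fun p : Pr × Arr ℕ => initP E sl p.1 p.2 := by
  have a1 : Impl fun p : Pr × Arr ℕ => E.X.init p.1.b 1 :=
    E.hX.iinit.comp (g := fun p : Pr × Arr ℕ => (p.1.b, 1)) (by fun_prop)
  have b1 := E.hN.iroot
  have b2 := E.hX.inode
  unfold initP s0 rootP addRoot
  fun_prop

/-- The invariant of the loop over the exposed vertices. -/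
structure Ini (x : Pm) (mt : Arr ℕ) (pre : List ℕ) (s : S) (Nw : List ℕ) (H : Hs)
    (V : P305N.Vw) : Prop where
  nc : s.nc = pre.length + 1
  fix : s.mt = mt ∧ s.bs = P305BL.St.init x.n ∧ s.cm = 0
  own : ∀ v, s.own.get v ≠ 0 ↔ v ∈ pre
  dat : ∀ v ∈ pre, s.own.get v ∈ Nw ∧ s.cid.get v = s.own.get v ∧ s.vn (s.own.get v) = v
  nm : ∀ a ∈ Nw, s.own.get (s.vn a) = a ∧ s.mem.get a = [s.vn a] ∧ s.sz.get a = 1 ∧
    s.top.get a = s.vn a
  nw : ∀ a, a ∈ Nw ↔ a % 4 = 0 ∧ 0 < a ∧ a < 4 * s.nc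
  nd : Nw.Nodup ∧ Nw.length = pre.length
  net : P305N.Inv x.b x.U V s.ns
  vw : V.I = ∅ ∧ V.P = Nw.toFinset ∧ (∀ k, V.tl k = 0) ∧ ∀ k, V.dt k = 0
  gh : H.OK x.Q x.F x.Γ pre.length
  lk : P305GH.Lk x.F H V
  hs : H.J = ∅ ∧ H.O = Nw.toFinset ∧ H.G.slot = ∅ ∧ ∀ a ∈ H.O, H.nd a = a

variable {E : Env β} {x : Pm} {mt : Arr ℕ} {pre Nw : List ℕ} {s : S} {H : Hs} {V : P305N.Vw}

theorem ini_zero (hx : x.OK E) : Ini x mt [] (s0 x.n mt) [] Hs.empty Vw.empty := by
  obtain ⟨u, hu⟩ := hx.pow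
  have a := hx.Uc
  have a1 := Nat.mul_le_mul_left (8 * x.U) hx.c0
  refine ⟨rfl, ⟨rfl, rfl, rfl⟩, by simp [s0], by simp, by simp, fun a => ?_, by simp,
    Inv.empty (by rw [hu]; positivity) (by omega), ⟨rfl, rfl, fun _ => rfl, fun _ => rfl⟩,
    Hs.ok_empty hx.QF _, lk_empty _, rfl, rfl, rfl, by simp [Hs.empty]⟩
  simp only [s0, List.not_mem_nil, false_iff]
  omega

theorem Ini.V_eq (h : Ini x mt pre s Nw H V) : H.G.V = Nw.toFinset := by
  rw [h.gh.V, h.hs.1, h.lk.I, h.vw.1, h.hs.2.1]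
  simp

theorem Ini.size (h : Ini x mt pre s Nw H V) : H.G.size ≤ 4 * pre.length := by
  have := h.gh.size_le.1
  rwa [h.V_eq, List.toFinset_card_of_nodup h.nd.1, h.nd.2] at this

theorem Ini.step (h : Ini x mt pre s Nw H V) (hx : x.OK E) {v : ℕ} (hv : v ∉ pre)
    (hn : pre.length < x.n) :
    Ini x mt (pre ++ [v]) (addRoot E.N s v (4 * s.nc) (s.nc + 1)) (4 * s.nc :: Nw)
      (H.root x.Q (4 * s.nc) (4 * s.nc)) (V.root (4 * s.nc)) := by
  have y0 : 4 * s.nc ∉ Nw := fun g => by have := (h.nw _).1 g; omega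
  have c0 := h.nc
  have yV : 4 * s.nc ∉ H.G.V := by rw [h.V_eq]; simpa using y0
  have yP : 4 * s.nc ∉ V.P := by rw [h.vw.2.1]; simpa using y0
  have vn : ∀ a ∈ Nw, (addRoot E.N s v (4 * s.nc) (s.nc + 1)).vn a = s.vn a := fun a ha => by
    have := (h.nw a).1 ha
    exact Arr.get_set_ne _ (by omega) _
  have vy : (addRoot E.N s v (4 * s.nc) (s.nc + 1)).vn (4 * s.nc) = v := by
    simp [S.vn, addRoot]
  have nv : ∀ a ∈ Nw, s.vn a ≠ v := fun a ha e => hv ((h.own v).1 (by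
    rw [← e, (h.nm a ha).1]; have := (h.nw a).1 ha; omega))
  have sz := hx.sz
  refine ⟨by simp [addRoot, c0], h.fix, fun u => ?_, fun u hu => ?_, fun a ha => ?_, fun a => ?_,
    ⟨List.nodup_cons.2 ⟨y0, h.nd.1⟩, by simp [h.nd.2]⟩,
    E.hN.root _ _ _ _ _ h.net (by omega) (by omega) (by simp [h.vw.1]) yP,
    ⟨h.vw.1, by simp [Vw.root, h.vw.2.1], h.vw.2.2.1, fun k => ?_⟩, ?_, h.lk.root h.gh yV,
    h.hs.1, by simp [Hs.root, h.hs.2.1], h.hs.2.2.1, fun a ha => ?_⟩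
  · simp only [addRoot, Arr.get_set, List.mem_append, List.mem_singleton, ← h.own]
    split_ifs with e
    · simp [e, c0]
    · simp [e]
  · rcases List.mem_append.1 hu with hu | hu
    · have e : u ≠ v := fun e => hv (e ▸ hu)
      obtain ⟨a1, a2, a3⟩ := h.dat u hu
      have o : (addRoot E.N s v (4 * s.nc) (s.nc + 1)).own.get u = s.own.get u :=
        Arr.get_set_ne _ e _
      rw [o, vn _ a1]
      exact ⟨List.mem_cons_of_mem _ a1, (Arr.get_set_ne _ e _).trans a2, a3⟩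
    · obtain rfl : u = v := by simpa using hu
      have o : (addRoot E.N s u (4 * s.nc) (s.nc + 1)).own.get u = 4 * s.nc := by simp [addRoot]
      rw [o, vy]
      exact ⟨List.mem_cons_self, by simp [addRoot], rfl⟩
  · rcases List.mem_cons.1 ha with rfl | ha
    · rw [vy]
      simp [addRoot]
    · have e : a ≠ 4 * s.nc := fun e => y0 (e ▸ ha)
      obtain ⟨a1, a2, a3, a4⟩ := h.nm a ha
      rw [vn a ha]
      exact ⟨(Arr.get_set_ne _ (nv a ha) _).trans a1, (Arr.get_set_ne _ e _).trans a2,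
        (Arr.get_set_ne _ e _).trans a3, (Arr.get_set_ne _ e _).trans a4⟩
  · simp only [List.mem_cons, h.nw, addRoot]
    omega
  · simp only [Vw.root, Function.update_apply, h.vw.2.2.2, ite_self]
  · rw [List.length_append]
    exact h.gh.root yV (h.lk.P ▸ yP)
  · simp only [Hs.root, mem_insert, Function.update_apply] at ha ⊢
    split_ifs with e
    · exact e.symm
    · exact h.hs.2.2.2 a (ha.resolve_left e)

theorem Ini.core (h : Ini x mt pre s Nw H V) (hx : x.OK E) (hm : Mat x.A (pm x.n mt))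
    (hp : ∀ v, v ∈ pre ↔ v < x.n ∧ mt.get v = v) (hd : pre.Nodup) (hR : x.R = pre.length) :
    Core x s ⟨H, V, 0, 0, 0, 0⟩ none Nw := by
  obtain ⟨f1, f2, f3⟩ := h.fix
  obtain ⟨v1, v2, v3, v4⟩ := h.vw
  obtain ⟨g1, g2, g3, g4⟩ := h.hs
  have mP : ∀ y, y ∈ V.I ∨ y ∈ V.P ↔ y ∈ Nw := fun y => by simp [v1, v2]
  have mP' : ∀ y, y ∈ V.P ↔ y ∈ Nw := fun y => by simp [v2]
  have n0 : ∀ a ∈ Nw, a ≠ 0 := fun a ha => by have := (h.nw a).1 ha; omega
  have vp : ∀ a ∈ Nw, s.vn a ∈ pre := fun a ha => (h.own _).1 (by rw [(h.nm a ha).1]; exact n0 a ha)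
  have iff : ∀ a ∈ Nw, ∀ v, v = s.vn a ↔ s.own.get v = a := fun a ha v =>
    ⟨fun e => e ▸ (h.nm a ha).1, fun e =>
      e ▸ (h.dat v ((h.own v).1 (e ▸ n0 a ha))).2.2.symm⟩
  have cid : ∀ a ∈ Nw, s.cid.get (s.vn a) = a := fun a ha =>
    (h.dat _ (vp a ha)).2.1.trans (h.nm a ha).1
  have op : ∀ v, s.own.get v ∈ V.P → v ∈ pre := fun v hv => (h.own v).1 (n0 _ ((mP' _).1 hv))
  have lv : s.live x.n = pre.toFinset := by
    ext v
    simp only [S.live, mem_filter, mem_range, h.own, List.mem_toFinset]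
    exact ⟨fun a => a.2, fun a => ⟨((hp v).1 a).1, a⟩⟩
  have un : ∀ v, v ∈ s.un x.n ↔ v < x.n ∧ mt.get v ≠ v := fun v => by
    simp only [S.un, mem_filter, mem_range, f1]
    refine and_congr_right fun a => ⟨fun a => a.2, fun a1 => ⟨?_, a1⟩⟩
    by_contra e
    exact a1 ((hp v).1 ((h.own v).1 e)).2
  refine ⟨h.net, hR ▸ h.gh, h.lk, fun v hv => ?_, fun y hy => ?_, fun y hy => ?_, fun v hv => ?_,
    fun v hv => ?_, fun p hp' => ?_, ?_, fun k hk => absurd (v3 k) hk, fun v hv => ?_,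
    fun a ha => ?_, by simp [g1], fun a ha => ?_, fun j j1 j2 => ?_, by simp [g3],
    fun v hv i _ => ?_, by simp, ⟨h.nd.1, fun a ha => ?_⟩, ?_, ?_, by omega, ?_,
    fun Ps Ys c => ?_, by simp [Vw.dts, v4]⟩
  · have a := (h.own v).1 hv
    obtain ⟨a1, a2, a3⟩ := h.dat v a
    have a4 := (h.nw _).1 a1
    rw [a2]
    exact ⟨((hp v).1 a).1, (mP _).2 a1, a4.1, a4.2.2, a3⟩
  · exact ⟨(h.nm y ((mP y).1 hy)).1, cid y ((mP y).1 hy)⟩
  · obtain ⟨-, a2, a3, -⟩ := h.nm y ((mP y).1 hy)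
    rw [a2, a3]
    exact ⟨by simp, fun v => by rw [List.mem_singleton, iff y ((mP y).1 hy)], rfl⟩
  · simp [v1] at hv
  · rw [(h.dat v (op v hv)).2.1, g2, ← v2]
    exact hv
  · have a := (mP' p).1 hp'
    have a1 := ((hp _).1 (vp p a)).1
    rw [(h.nm p a).2.2.2, f2, P305BL.St.V_leaf _ a1]
    exact ⟨P305BL.St.Node.leaf a1 le_rfl, fun v => by rw [mem_singleton, iff p a]⟩
  · simp [f2, P305BL.St.init, v1]
  · obtain ⟨a1, a2⟩ := (un v).1 hv
    have e : pm x.n mt v = mt.get v := pm_lt _ a1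
    have a3 : mt.get v < x.n := e ▸ hm.lt hx.adj.gr a1
    have a4 : mt.get (mt.get v) = v := by
      have := hm.inv v
      rwa [e, pm_lt _ a3] at this
    rw [f1]
    exact ⟨(un _).2 ⟨a3, by rw [a4]; exact a2.symm⟩, a4, a2, e ▸ hm.adj v (e ▸ a2)⟩
  · have a : a ∈ Nw := by simpa [g2] using ha
    rw [S.res, cid _ a, if_pos rfl, (h.nm _ a).1]
    exact g4 _ ha
  · have a1 : a ∈ Nw := by simpa [h.V_eq] using ha
    have a2 := (h.nw a).1 a1
    refine ⟨a2.2.2, fun e => ?_, fun e => absurd a2.1 e⟩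
    have := (h.gh.sl a).2 ⟨ha, e⟩
    simp [g3] at this
  · show 4 * j ∈ H.G.V
    rw [h.V_eq, List.mem_toFinset, h.nw]
    omega
  · refine .inr (.inr (.inr ?_))
    rw [(h.dat v (op v hv)).2.1]
    exact (mP' _).1 hv
  · refine ⟨by simpa [g2] using ha, ((h.nw a).1 ha).1, fun i hi e => ?_⟩
    have a1 : a + 1 + i ∈ Nw := by simpa [h.V_eq] using e
    have := (h.nw _).1 a1
    have := (h.nw _).1 ha
    omega
  · rw [lv, List.toFinset_card_of_nodup hd]
    exact h.nc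
  · refine card_eq_zero.2 (eq_empty_of_forall_notMem fun v hv => ?_)
    simp only [S.disc, mem_filter, mem_range, f1] at hv
    exact (h.own v).2 ((hp v).2 ⟨hv.1, hv.2.2⟩) hv.2.1
  · have : H.wJ = 0 := by simp [Hs.wJ, g1]
    simpa [bud, f3, this] using P305GM.Acc.init x.U x.Vm x.al x.Γ
  · have : Ys = ∅ := subset_empty.1 (v1 ▸ c.sI)
    simp [this]

theorem psi_le (s : S) (hx : x.OK E) : s.psi x ≤ x.n * x.Γ := by
  have a := sum_le_card_nsmul (s.live x.n)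
    (fun v => x.b + 2 - Nat.size (s.sz.get (s.own.get v))) x.Γ fun v _ => by
      have := hx.bG; omega
  have a1 : (s.live x.n).card ≤ x.n := (card_filter_le _ _).trans (card_range _).le
  exact a.trans (Nat.mul_le_mul_right _ a1)

theorem init (h : SLOTS) : INIT := by
  intro β _ E
  obtain ⟨sl, hs⟩ := h β E
  refine ⟨initP E sl, impl_initP E hs.impl, fun x mt hx hm hR => ?_⟩
  have gX := hx.gX
  have sz := hx.sz
  have wd : 2 ^ x.b ≤ x.B := le_trans (Nat.pow_le_pow_left (by omega) _)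
    ((Nat.pow_le_pow_right (by omega) (Nat.le_add_right _ 2)).trans hx.wd)
  unfold initP
  refine (E.hX.init x.B x.b 1 le_rfl Nat.one_le_two_pow hx.wX).bind ?_
  rintro bx t0 ⟨φ0, i0, e0⟩
  refine Vt.tbind' ((Tri_rangeP _ _).2 ?_)
  refine Vt.tbind' ((Tri_filterP _ _ _).2 ?_)
  obtain ⟨l, hl⟩ : ∃ l, l = (List.range x.n).filter fun v => decide (mt.get v = v) := ⟨_, rfl⟩
  have l1 : l.Nodup := hl ▸ List.nodup_range.filter _
  have l2 : ∀ v, v ∈ l ↔ v < x.n ∧ mt.get v = v := fun v => by simp [hl]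
  have l3 : l.length ≤ x.n := hl ▸ (List.length_filter_le _ _).trans List.length_range.le
  have l4 : x.R = l.length := by
    rw [hR, ex, ← List.toFinset_card_of_nodup l1]
    congr 1
    ext v
    simp only [exposed, mem_filter, mem_range, List.mem_toFinset, l2]
    exact and_congr_right fun a => by rw [pm_lt _ a]
  rw [← hl]
  refine (Vt.foldM (fun pre (z : S × List ℕ × β) t => ∃ H V φ, Ini x mt pre z.1 z.2.1 H V ∧
    E.I x.B x.b 1 H.G z.2.2 φ ∧ t + φ ≤ φ0 + pre.length * (x.Γ + 1))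
    ⟨_, _, φ0, ini_zero hx, i0, by simp⟩ ?_).bind ?_
  · rintro pre v rest z t e ⟨H, V, φ, i, b1, b2⟩
    have d := e ▸ l1
    have hv : v ∉ pre := fun g => List.disjoint_of_nodup_append d g List.mem_cons_self
    have hn : pre.length < x.n := by
      have := congrArg List.length e
      simp only [List.length_append, List.length_cons] at this
      omega
    have c0 := i.nc
    have s1 := i.size
    have q1 := hx.QF
    have q2 := hx.Fb
    refine Vt.num_bind (by omega) (Vt.num_bind (by omega) ?_)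
    refine (E.hX.node x.B x.b 1 H.G z.2.2 φ (4 * z.1.nc) x.Q false b1 (by omega) ?_
      False.elim (by omega)).bind ?_
    · rw [i.V_eq, List.mem_toFinset, i.nw]
      omega
    rintro bx' t' ⟨φ', b3, b4⟩
    refine Vt.pure ⟨_, _, φ', i.step hx hv hn, b3, ?_⟩
    simp only [List.length_append, List.length_singleton]
    linarith
  rintro z t ⟨H, V, φ, i, b1, b2⟩
  refine (hs.spec x z.1 _ none z.2.1 z.2.2 φ hx (i.core hx hm l2 l1 l4) b1).bind ?_
  rintro bx' t' ⟨H', φ', c1, c2, c3, c4⟩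
  refine Vt.pure ⟨_, _, ⟨c1, ⟨0, Nat.zero_le _, P305FL.Lev.init fun y _ => i.vw.2.2.2 y⟩,
    φ', c2, rfl⟩, c3.trans (subset_empty.1 (i.hs.2.2.1 ▸ i.gh.scn)), ?_⟩
  have p0 : P305FL.pot x.b (Arr.const ([] : P305FL.PL)).get = 0 := P305FL.pot_empty
  have p1 := Nat.mul_le_mul_left x.La (psi_le z.1 hx)
  have p2 := i.nd.2
  have p3 := hx.big
  have p4 : x.Γ ^ 2 * 4 ≤ x.La * x.Γ := by
    have : x.Γ ^ 2 ≤ x.La := Nat.pow_le_pow_right (by omega) (by omega)
    exact Nat.mul_le_mul this (by omega)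
  have p5 := Nat.mul_le_mul_right (x.n + 1) p4
  have p6 : x.Γ ^ 2 * (z.2.1.length + 1) ≤ x.Γ ^ 2 * (x.n + 1) := Nat.mul_le_mul_left _ (by omega)
  have p7 : l.length * (x.Γ + 1) ≤ x.n * (x.Γ + 1) := Nat.mul_le_mul_right _ l3
  have p8 : (x.Γ + 3) * (x.n + 1) ≤ x.Γ ^ 2 * (x.n + 1) := Nat.mul_le_mul_right _ (by nlinarith)
  simp only [p0, i.fix.2.2, List.length_range, Nat.sub_zero] at *
  nlinarith

end Vale.Agent.P305IN
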